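import Vale.Agent.P265.H690.Infinity
import Vale.Agent.P265.H336.Htpy

/-!
# P265, block B8: the bottom of the box

The pair (box, bottom) has at least the cohomology of the pair
`N × ({‖u‖ ≤ a}, {‖u‖ ≥ a'})`.
-/

open Set
open Vale.Agent.P265.AS

namespace Vale.Agent.P265.H690

/-- Truncation of a real number to `[-a, a]`. -/
noncomputable def clamp (a t : ℝ) : ℝ := max (-a) (min a t)

theorem abs_clamp_le {a : ℝ} (ha : 0 ≤ a) (t : ℝ) : |clamp a t| ≤ a := by
  rw [abs_le, clamp]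
  exact ⟨le_max_left _ _, max_le (by linarith) (min_le_left _ _)⟩

theorem clamp_of_abs_le {a t : ℝ} (h : |t| ≤ a) : clamp a t = t := by
  rw [abs_le] at h
  rw [clamp, min_eq_right h.2, max_eq_right h.1]

theorem abs_clamp_sub_le (a s t : ℝ) : |clamp a s - clamp a t| ≤ |s - t| := by
  rw [clamp, clamp]
  refine (abs_max_sub_max_le_max _ _ _ _).trans ?_
  rw [sub_self, abs_zero]
  refine max_le (abs_nonneg _) ((abs_min_sub_min_le_max _ _ _ _).trans ?_)
  rw [sub_self, abs_zero]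
  exact max_le (abs_nonneg _) le_rfl

theorem le_abs_clamp {a r t : ℝ} (hr : r ≤ a) (h : r ≤ |t|) :
    r ≤ |clamp a t| := by
  rcases le_total 0 t with h0 | h0
  · rw [abs_of_nonneg h0] at h
    have h1 : r ≤ clamp a t := by
      rw [clamp]
      exact le_max_of_le_right (le_min hr h)
    exact h1.trans (le_abs_self _)
  · rw [abs_of_nonpos h0] at h
    have h1 : clamp a t ≤ -r := by
      rw [clamp]
      exact max_le (by linarith) ((min_le_right _ _).trans (by linarith))
    exact (by linarith : r ≤ -clamp a t).trans (neg_le_abs _)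

theorem uniformContinuous_clamp (a : ℝ) : UniformContinuous (clamp a) := by
  refine (LipschitzWith.of_dist_le_mul (K := 1) fun s t => ?_).uniformContinuous
  rw [Real.dist_eq, Real.dist_eq, NNReal.coe_one, one_mul]
  exact abs_clamp_sub_le a s t

/-- Dilation by `c` followed by truncation. -/
noncomputable def push (a c : ℝ) {p : ℕ} (u : Fin p → ℝ) : Fin p → ℝ := fun i => clamp a (c * u i)

theorem uniformContinuous_push (a c : ℝ) {p : ℕ} :
    UniformContinuous (push a c : (Fin p → ℝ) → (Fin p → ℝ)) := by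
  refine uniformContinuous_pi.2 fun i => ?_
  have h1 : UniformContinuous (fun t : ℝ => c * t) := by
    refine (LipschitzWith.of_dist_le_mul (K := ‖c‖₊) fun s t => ?_).uniformContinuous
    rw [Real.dist_eq, Real.dist_eq, coe_nnnorm, Real.norm_eq_abs, ← abs_mul, mul_sub]
  exact (uniformContinuous_clamp a).comp (h1.comp (Pi.uniformContinuous_proj _ i))

theorem push_zero_smul {a : ℝ} {p : ℕ} {u : Fin p → ℝ} (h : ∀ i, |u i| ≤ a) :
    push a 1 u = u := by
  funext i
  rw [push, one_mul, clamp_of_abs_le (h i)]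

variable {V : Type*} [NormedAddCommGroup V] [NormedSpace ℝ V]
  {M : Type*} [TopologicalSpace M] [ChartedSpace V M]
  {Z : Type} [NormedAddCommGroup Z] [NormedSpace ℝ Z]
  {k : Type} [Field k] {N : Type} [PseudoMetricSpace N]

/-- The bottom comparison: the pair (box, bottom) dominates `N × (cube, outer shell)`. -/
theorem hh_box_le {F : M × Z → ℝ} {p q : ℕ} {T : Z ≃L[ℝ] (Fin p → ℝ) × (Fin q → ℝ)}
    {R₁ a' a b lo hi : ℝ} (hB : IsBox (V := V) F T R₁ a' a b lo hi) (g : N → N) (π : N → M)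
    (χ : k) (j : ℕ) :
    hh (Prod.map g id) χ {x : N × (Fin p → ℝ) | ∀ i, |x.2 i| ≤ a}
        {x : N × (Fin p → ℝ) | (∀ i, |x.2 i| ≤ a) ∧ ∃ i, a' ≤ |x.2 i|} j ≤
      hh (Prod.map g id) χ ((univ : Set N) ×ˢ {z : Z | ‖(T z).1‖ ≤ a ∧ ‖(T z).2‖ ≤ b})
        {x | x ∈ (univ : Set N) ×ˢ {z : Z | ‖(T z).1‖ ≤ a ∧ ‖(T z).2‖ ≤ b} ∧
          F (π x.1, x.2) ≤ lo} j := by
  have ha' : 0 < a' := hB.R₁_pos.trans hB.R₁_lt_a'
  have ha : 0 < a := ha'.trans hB.a'_lt
  have hb : 0 < b := hB.R₁_pos.trans hB.R₁_lt_b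
  have hlo : 0 < -lo := by linarith [hB.lo_neg]
  -- a lower bound for the sup norm of `u` in the bottom
  obtain ⟨m, hm, hm'⟩ : ∃ m > 0, ∀ x z, F (x, z) ≤ lo → m ≤ ‖(T z).1‖ := by
    refine ⟨Real.sqrt (-lo / (p + 1)), Real.sqrt_pos.2 (by positivity), fun x z h => ?_⟩
    by_contra hcon
    push Not at hcon
    have h1 := sum_sq_le_of_norm_le hcon.le
    rw [Real.sq_sqrt (by positivity)] at h1
    have h2 : R₁ < ‖T z‖ := by
      by_contra h3
      push Not at h3
      linarith [hB.low x z h3]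
    rw [hB.quad x z h2, q0] at h
    have h3 : 0 ≤ ∑ i, (T z).2 i ^ 2 := Finset.sum_nonneg fun _ _ => sq_nonneg _
    have h4 : (p : ℝ) * (-lo / (p + 1)) < -lo := by
      rw [← mul_div_assoc, div_lt_iff₀ (by positivity)]
      nlinarith
    linarith
  set c : ℝ := max 1 (a' / m) with hc
  have hc1 : 1 ≤ c := le_max_left _ _
  have hcm : a' ≤ c * m := by
    have := le_max_right 1 (a' / m)
    rw [div_le_iff₀ hm] at this
    exact this
  let φ : N × (Fin p → ℝ) → N × Z := fun x => (x.1, T.symm (x.2, 0))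
  let ψ : N × Z → N × (Fin p → ℝ) := fun x => (x.1, push a c (T x.2).1)
  let H : ℝ → N × (Fin p → ℝ) → N × (Fin p → ℝ) := fun s x => (x.1, push a (1 + s * (c - 1)) x.2)
  have hφuc : UniformContinuous φ := by
    refine uniformContinuous_fst.prodMk ?_
    have h1 : UniformContinuous fun x : N × (Fin p → ℝ) => ((x.2, 0) : (Fin p → ℝ) × (Fin q → ℝ)) :=
      uniformContinuous_snd.prodMk uniformContinuous_const
    exact (T.symm : (Fin p → ℝ) × (Fin q → ℝ) →L[ℝ] Z).uniformContinuous.comp h1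
  have hψuc : UniformContinuous ψ := by
    refine uniformContinuous_fst.prodMk ?_
    have h1 : UniformContinuous fun x : N × Z => (T x.2).1 :=
      uniformContinuous_fst.comp
        ((T : Z →L[ℝ] (Fin p → ℝ) × (Fin q → ℝ)).uniformContinuous.comp uniformContinuous_snd)
    exact (uniformContinuous_push a c).comp h1
  refine hh_le_of_retract (φ := φ) (ψ := ψ) (H := H) ⟨?_, ?_, ?_, ?_⟩ ⟨?_, ?_, ?_, ?_⟩
    ⟨?_, ?_, ?_, ?_⟩ (fun x hx => hx.1) (fun x hx => hx.1) ?_ ?_ χ j
  · intro x hx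
    refine ⟨mem_univ _, ?_, ?_⟩
    · simp only [φ, ContinuousLinearEquiv.apply_symm_apply]
      exact (pi_norm_le_iff_of_nonneg ha.le).2 hx
    · simp [φ, hb.le]
  · rintro x ⟨hx, i, hi⟩
    have h1 : ‖(T (φ x).2).1‖ ≤ a := by
      simp only [φ, ContinuousLinearEquiv.apply_symm_apply]
      exact (pi_norm_le_iff_of_nonneg ha.le).2 hx
    have h2 : ‖(T (φ x).2).2‖ ≤ b := by simp [φ, hb.le]
    have h3 : a' ≤ ‖(T (φ x).2).1‖ := by
      simp only [φ, ContinuousLinearEquiv.apply_symm_apply]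
      exact hi.trans (norm_le_pi_norm x.2 i)
    exact ⟨⟨mem_univ _, h1, h2⟩, (hB.bottom _ _ h3 h2).le⟩
  · intro x _; rfl
  · intro ε hε
    obtain ⟨δ, hδ, h⟩ := Metric.uniformContinuous_iff.1 hφuc ε hε
    exact ⟨δ, hδ, fun x _ y _ hxy => h hxy⟩
  · intro x _ i
    exact abs_clamp_le ha.le _
  · rintro x ⟨hx, hF⟩
    refine ⟨fun i => abs_clamp_le ha.le _, ?_⟩
    have h1 := hm' _ _ hF
    obtain ⟨i, hi⟩ : ∃ i, m ≤ |(T x.2).1 i| := by
      by_contra hcon
      push Not at hcon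
      have := (pi_norm_lt_iff hm (x := (T x.2).1)).2 fun i => hcon i
      linarith
    refine ⟨i, le_abs_clamp hB.a'_lt.le ?_⟩
    rw [abs_mul, abs_of_pos (by linarith : 0 < c)]
    exact hcm.trans (mul_le_mul_of_nonneg_left hi (by linarith))
  · intro x _; rfl
  · intro ε hε
    obtain ⟨δ, hδ, h⟩ := Metric.uniformContinuous_iff.1 hψuc ε hε
    exact ⟨δ, hδ, fun x _ y _ hxy => h hxy⟩
  · intro s _ x _ i
    exact abs_clamp_le ha.le _
  · rintro s hs x ⟨hx, i, hi⟩
    refine ⟨fun i => abs_clamp_le ha.le _, i, le_abs_clamp hB.a'_lt.le ?_⟩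
    have h1 : 1 ≤ 1 + s * (c - 1) := by nlinarith [hs.1]
    rw [abs_mul, abs_of_pos (by linarith : 0 < 1 + s * (c - 1))]
    nlinarith [abs_nonneg (x.2 i)]
  · intro s _ x _; rfl
  · intro ε hε
    set D : ℝ := (c - 1) * a + c + 1 with hD
    have hD0 : 1 ≤ D := by nlinarith
    refine ⟨ε / (2 * D), by positivity, fun s hs t ht x hx y hy hst hxy => ?_⟩
    have hδε : ε / (2 * D) < ε := by
      rw [div_lt_iff₀ (by positivity)]
      nlinarith
    have hxy1 : dist x.1 y.1 < ε := (le_max_left _ _).trans_lt (hxy.trans hδε)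
    have hxy2 : dist x.2 y.2 < ε / (2 * D) := (le_max_right _ _).trans_lt hxy
    refine max_lt hxy1 ((dist_pi_lt_iff hε).2 fun i => ?_)
    have h1 : |x.2 i - y.2 i| < ε / (2 * D) := by
      rw [← Real.dist_eq]
      exact (dist_le_pi_dist x.2 y.2 i).trans_lt hxy2
    change dist (clamp a _) (clamp a _) < ε
    rw [Real.dist_eq]
    refine (abs_clamp_sub_le _ _ _).trans_lt ?_
    have h2 : (1 + s * (c - 1)) * x.2 i - (1 + t * (c - 1)) * y.2 i =
        (s - t) * (c - 1) * x.2 i + (1 + t * (c - 1)) * (x.2 i - y.2 i) := by ring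
    rw [h2]
    have h3 : |(s - t) * (c - 1) * x.2 i| ≤ ε / (2 * D) * ((c - 1) * a) := by
      rw [abs_mul, abs_mul, abs_of_nonneg (by linarith : 0 ≤ c - 1), mul_assoc]
      exact mul_le_mul hst.le (mul_le_mul_of_nonneg_left (hx i) (by linarith))
        (by positivity) (by positivity)
    have h4 : |(1 + t * (c - 1)) * (x.2 i - y.2 i)| ≤ c * (ε / (2 * D)) := by
      have h5 : 0 ≤ 1 + t * (c - 1) := by nlinarith [ht.1]
      have h6 : 1 + t * (c - 1) ≤ c := by nlinarith [ht.2]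
      rw [abs_mul, abs_of_nonneg h5]
      exact mul_le_mul h6 h1.le (abs_nonneg _) (by linarith)
    have h7 : ε / (2 * D) * ((c - 1) * a) + c * (ε / (2 * D)) < ε := by
      have h8 : ε / (2 * D) * ((c - 1) * a) + c * (ε / (2 * D)) = ε / (2 * D) * (D - 1) := by
        rw [hD]; ring
      have h9 : ε = ε / (2 * D) * (2 * D) := by field_simp
      have h10 : 0 < ε / (2 * D) := by positivity
      rw [h8]
      nlinarith
    exact (abs_add_le _ _).trans_lt (by linarith)
  · intro x hx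
    refine Prod.ext rfl ?_
    simp only [H, zero_mul, add_zero]
    exact push_zero_smul hx
  · intro x _
    simp only [H, ψ, φ, ContinuousLinearEquiv.apply_symm_apply]
    rw [show 1 + 1 * (c - 1) = c by ring]

end Vale.Agent.P265.H690
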