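import Vale.Agent.P265.Flat.LDefs
import Mathlib.LinearAlgebra.QuadraticForm.Real

/-!
# P265, block B8: the end at infinity

Coordinates in which a nondegenerate quadratic form is `-|u|² + |v|²`, a compact box `K` containing
all critical points of a function which is quadratic at infinity, and the motion of the wall.
-/

open Set Manifold
open scoped ContDiff Topology

namespace Vale.Agent.P265.H690

/-- The standard quadratic form `-|u|² + |v|²`. -/
noncomputable def q0 {p q : ℕ} (y : (Fin p → ℝ) × (Fin q → ℝ)) : ℝ :=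
  -∑ i, y.1 i ^ 2 + ∑ j, y.2 j ^ 2

/-- Sylvester: linear coordinates in which a nondegenerate quadratic form is `-|u|² + |v|²`. -/
theorem exists_coords {Z : Type*} [NormedAddCommGroup Z] [NormedSpace ℝ Z]
    [FiniteDimensional ℝ Z] (Q : QuadraticForm ℝ Z)
    (hQ : ∀ v, (∀ w, QuadraticMap.polar Q v w = 0) → v = 0) :
    ∃ (p q : ℕ) (T : Z ≃L[ℝ] (Fin p → ℝ) × (Fin q → ℝ)), ∀ z, Q z = q0 (T z) := by
  classical
  have hsep : (QuadraticMap.associated (R := ℝ) Q).SeparatingLeft := by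
    intro v hv
    refine hQ v fun w => ?_
    have h1 := hv w
    rw [QuadraticMap.associated_apply] at h1
    rw [QuadraticMap.polar]
    have h2 : (⅟(2 : Module.End ℝ ℝ)) (Q (v + w) - Q v - Q w) = 0 := h1
    have h3 : (2 : Module.End ℝ ℝ) ((⅟(2 : Module.End ℝ ℝ)) (Q (v + w) - Q v - Q w)) =
        Q (v + w) - Q v - Q w := by
      rw [← Module.End.mul_apply, mul_invOf_self]; rfl
    rw [h2, map_zero] at h3
    exact h3.symm
  obtain ⟨w, hw, ⟨e⟩⟩ := Q.equivalent_one_neg_one_weighted_sum_squared hsep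
  let P : Fin (Module.finrank ℝ Z) → Prop := fun i => w i = -1
  let e1 : {i // P i} ≃ Fin (Fintype.card {i // P i}) := Fintype.equivFin _
  let e2 : {i // ¬ P i} ≃ Fin (Fintype.card {i // ¬ P i}) := Fintype.equivFin _
  let S : (Fin (Module.finrank ℝ Z) → ℝ) ≃ₗ[ℝ] (Fin (Fintype.card {i // P i}) → ℝ) × (Fin (Fintype.card {i // ¬ P i}) → ℝ) :=
    { toFun := fun x => (fun i => x (e1.symm i).1, fun j => x (e2.symm j).1)
      invFun := fun y i => if h : P i then y.1 (e1 ⟨i, h⟩) else y.2 (e2 ⟨i, h⟩)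
      map_add' := fun x y => rfl
      map_smul' := fun c x => rfl
      left_inv := by
        intro x
        funext i
        by_cases h : P i
        · simp [h]
        · simp [h]
      right_inv := by
        rintro ⟨y1, y2⟩
        ext i
        · have h : P (e1.symm i).1 := (e1.symm i).2
          simp [h]
        · have h : ¬ P (e2.symm i).1 := (e2.symm i).2
          simp [h] }
  refine ⟨_, _, (e.toLinearEquiv.trans S).toContinuousLinearEquiv, fun z => ?_⟩
  have h1 : Q z = QuadraticMap.weightedSumSquares ℝ w (e z) := (e.map_app z).symm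
  rw [h1, QuadraticMap.weightedSumSquares_apply, q0]
  have h2 : ∑ i, w i • (e z i * e z i) =
      ∑ i : {i // P i}, w i.1 • (e z i.1 * e z i.1) +
        ∑ i : {i // ¬ P i}, w i.1 • (e z i.1 * e z i.1) :=
    (Fintype.sum_subtype_add_sum_subtype P (fun i => w i • (e z i * e z i))).symm
  rw [h2, ← e1.symm.sum_comp, ← e2.symm.sum_comp]
  congr 1
  · rw [← Finset.sum_neg_distrib]
    refine Finset.sum_congr rfl fun i _ => ?_
    have h3 : w (e1.symm i).1 = -1 := (e1.symm i).2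
    rw [h3]
    change -1 • (e z (e1.symm i).1 * e z (e1.symm i).1) = -((e z (e1.symm i).1) ^ 2)
    rw [smul_eq_mul]; ring
  · refine Finset.sum_congr rfl fun i _ => ?_
    have h3 : w (e2.symm i).1 = 1 := (hw _).resolve_left (e2.symm i).2
    rw [h3]
    change (1 : ℝ) • (e z (e2.symm i).1 * e z (e2.symm i).1) = (e z (e2.symm i).1) ^ 2
    rw [smul_eq_mul]; ring

section Elementary

variable {p q : ℕ}

theorem sum_sq_le_of_norm_le {n : ℕ} {u : Fin n → ℝ} {r : ℝ} (h : ‖u‖ ≤ r) :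
    ∑ i, u i ^ 2 ≤ n * r ^ 2 := by
  have h1 : ∀ i ∈ Finset.univ, u i ^ 2 ≤ r ^ 2 := fun i _ => by
    have h2 : |u i| ≤ r := (norm_le_pi_norm u i).trans h
    exact sq_le_sq' (neg_le_of_abs_le h2) (le_of_abs_le h2)
  simpa using Finset.sum_le_sum h1

theorem sq_le_sum_sq_of_le_norm {n : ℕ} {u : Fin n → ℝ} {r : ℝ} (hr : 0 < r) (h : r ≤ ‖u‖) :
    r ^ 2 ≤ ∑ i, u i ^ 2 := by
  have h0 : ∃ i, r ≤ |u i| := by
    by_contra hcon
    push Not at hcon
    have : ‖u‖ < r := (pi_norm_lt_iff hr).2 hcon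
    linarith
  obtain ⟨i, hi⟩ := h0
  have h1 : r ^ 2 ≤ u i ^ 2 := by
    rw [← sq_abs (u i)]
    exact pow_le_pow_left₀ hr.le hi 2
  exact h1.trans (Finset.single_le_sum (f := fun i => u i ^ 2) (fun i _ => sq_nonneg _)
    (Finset.mem_univ i))

theorem sum_sq_pos_of_ne_zero {n : ℕ} {u : Fin n → ℝ} (h : u ≠ 0) : 0 < ∑ i, u i ^ 2 := by
  have h1 : 0 < ‖u‖ := norm_pos_iff.2 h
  exact (pow_pos h1 2).trans_le (sq_le_sum_sq_of_le_norm h1 le_rfl)

end Elementary

section Box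

variable {V : Type*} [NormedAddCommGroup V] [NormedSpace ℝ V]
  {M : Type*} [TopologicalSpace M] [ChartedSpace V M]
  {Z : Type*} [NormedAddCommGroup Z] [NormedSpace ℝ Z]

/-- `F : M × Z → ℝ` equals, if `Z ≠ 0`, a nondegenerate quadratic form outside a compact set. -/
def QuadInf (F : M × Z → ℝ) : Prop :=
  Nontrivial Z → ∃ (Q : QuadraticForm ℝ Z) (R : ℝ),
    (∀ v, (∀ w, QuadraticMap.polar Q v w = 0) → v = 0) ∧ 0 < R ∧ ∀ x z, R ≤ ‖z‖ → F (x, z) = Q z

/-- The data of a compact box for a function which is quadratic at infinity. `T` are linear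
coordinates `z ↦ (u, v)` (sup norms); the box `K` is `‖u‖ ≤ a`, `‖v‖ ≤ b`, with bottom `F ≤ lo`. -/
structure IsBox (F : M × Z → ℝ) {p q : ℕ} (T : Z ≃L[ℝ] (Fin p → ℝ) × (Fin q → ℝ))
    (R₁ a' a b lo hi : ℝ) : Prop where
  R₁_pos : 0 < R₁
  R₁_lt_a' : R₁ < a'
  a'_lt : a' < a
  R₁_lt_b : R₁ < b
  lo_neg : lo < 0
  neg_lo_lt : -lo < a' ^ 2
  /-- `F = -|u|² + |v|²` for `‖(u, v)‖ > R₁`. -/
  quad : ∀ x z, R₁ < ‖T z‖ → F (x, z) = q0 (T z)
  /-- `F > lo` for `‖(u, v)‖ ≤ R₁`. -/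
  low : ∀ x z, ‖T z‖ ≤ R₁ → lo < F (x, z)
  low_q0 : ∀ z, ‖T z‖ ≤ R₁ → lo < q0 (T z)
  /-- The part `‖u‖ ≥ a'` of the box lies in the bottom `F < lo`. -/
  bottom : ∀ x z, a' ≤ ‖(T z).1‖ → ‖(T z).2‖ ≤ b → F (x, z) < lo
  /-- The top. -/
  top : ∀ x z, ‖(T z).1‖ ≤ a → ‖(T z).2‖ ≤ b → F (x, z) ≤ hi
  /-- The critical points lie in the interior of the box and above the bottom. -/
  crit : ∀ x z, (x, z) ∈ Loc.Crit (𝓘(ℝ, V).prod 𝓘(ℝ, Z)) F → ‖T z‖ ≤ R₁

/-- A quadratic function on `Z ≠ 0` pulled back to `M × Z` has no critical point outside `0`. -/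
theorem not_mem_crit_of_eventuallyEq {F : M × Z → ℝ} {Q : QuadraticForm ℝ Z}
    [FiniteDimensional ℝ Z]
    (hQ : ∀ v, (∀ w, QuadraticMap.polar Q v w = 0) → v = 0) {x : M} {z : Z} (hz : z ≠ 0)
    (hF : ∀ᶠ z' in 𝓝 z, F (x, z') = Q z')
    (hd : MDifferentiableAt (𝓘(ℝ, V).prod 𝓘(ℝ, Z)) 𝓘(ℝ, ℝ) F (x, z)) :
    (x, z) ∉ Loc.Crit (𝓘(ℝ, V).prod 𝓘(ℝ, Z)) F := by
  intro hcrit
  refine hz (hQ z fun w => ?_)
  -- the line `t ↦ (x, z + t w)`
  let l : ℝ → M × Z := fun t => (x, z + t • w)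
  have hl : MDifferentiableAt 𝓘(ℝ, ℝ) (𝓘(ℝ, V).prod 𝓘(ℝ, Z)) l 0 := by
    refine MDifferentiableAt.prodMk mdifferentiableAt_const ?_
    exact (DifferentiableAt.mdifferentiableAt (by fun_prop))
  have hd' : MDifferentiableAt (𝓘(ℝ, V).prod 𝓘(ℝ, Z)) 𝓘(ℝ, ℝ) F (l 0) := by
    simpa [l] using hd
  have h0 : mfderiv (𝓘(ℝ, V).prod 𝓘(ℝ, Z)) 𝓘(ℝ, ℝ) F (l 0) = 0 := by
    have : l 0 = (x, z) := by simp [l]
    rw [this]; exact hcrit
  have h1 : mfderiv 𝓘(ℝ, ℝ) 𝓘(ℝ, ℝ) (F ∘ l) 0 = 0 := by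
    rw [mfderiv_comp (0 : ℝ) hd' hl, h0]
    ext; rfl
  have h2 : F ∘ l =ᶠ[𝓝 0] fun t => Q (z + t • w) := by
    have hc : Filter.Tendsto (fun t : ℝ => z + t • w) (𝓝 0) (𝓝 z) := by
      have : Continuous fun t : ℝ => z + t • w := by fun_prop
      simpa using this.tendsto 0
    exact hc.eventually hF
  rw [mfderiv_eq_fderiv] at h1
  have h3 : HasDerivAt (F ∘ l) 0 0 := by
    have h4 : DifferentiableAt ℝ (F ∘ l) 0 := by
      have := (hd'.comp (0 : ℝ) hl)
      exact this.differentiableAt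
    have h5 := h4.hasFDerivAt
    rw [show fderiv ℝ (F ∘ l) 0 = 0 from h1] at h5
    have := h5.hasDerivAt
    simpa using this
  have h6 : HasDerivAt (fun t => Q (z + t • w)) (QuadraticMap.polar Q z w) (0 : ℝ) := by
    have h7 : (fun t : ℝ => Q (z + t • w)) = fun t => Q z + t ^ 2 * Q w + t * QuadraticMap.polar Q z w := by
      funext t
      rw [QuadraticMap.map_add Q, QuadraticMap.map_smul, QuadraticMap.polar_smul_right]
      simp only [smul_eq_mul]; ring
    rw [h7]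
    have h8 := ((hasDerivAt_const (0 : ℝ) (Q z)).add
      (((hasDerivAt_id (0 : ℝ)).pow 2).mul_const (Q w))).add
      ((hasDerivAt_id (0 : ℝ)).mul_const (QuadraticMap.polar Q z w))
    have h9 : (fun t : ℝ => Q z + t ^ 2 * Q w + t * QuadraticMap.polar Q z w) =
      ((fun _ => Q z) + fun y => (id ^ 2 : ℝ → ℝ) y * Q w) +
        fun y => id y * QuadraticMap.polar Q z w := rfl
    rw [h9]
    simpa using h8
  exact (h6.congr_of_eventuallyEq h2).unique h3

theorem exists_isBox [CompactSpace M] [FiniteDimensional ℝ Z] {F : M × Z → ℝ}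
    (hF : ContMDiff (𝓘(ℝ, V).prod 𝓘(ℝ, Z)) 𝓘(ℝ, ℝ) ∞ F) (hQ : QuadInf F) :
    ∃ (p q : ℕ) (T : Z ≃L[ℝ] (Fin p → ℝ) × (Fin q → ℝ)) (R₁ a' a b lo hi : ℝ),
      IsBox (V := V) F T R₁ a' a b lo hi := by
  have hFc : Continuous F := hF.continuous
  have hbd : ∀ R : ℝ, ∃ C : ℝ, 0 < C ∧ ∀ x z, ‖z‖ ≤ R → |F (x, z)| < C := by
    intro R
    have hK : IsCompact ((univ : Set M) ×ˢ Metric.closedBall (0 : Z) R) :=
      isCompact_univ.prod (isCompact_closedBall 0 R)
    obtain ⟨C, hC⟩ := hK.exists_bound_of_continuousOn hFc.continuousOn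
    refine ⟨max C 0 + 1, by positivity, fun x z hz => ?_⟩
    have h1 := hC (x, z) ⟨mem_univ _, by simpa using hz⟩
    rw [Real.norm_eq_abs] at h1
    have h2 := le_max_left C 0
    linarith
  rcases subsingleton_or_nontrivial Z with hZ | hZ
  · obtain ⟨C, hC0, hC⟩ := hbd 0
    let T0 : Z ≃ₗ[ℝ] (Fin 0 → ℝ) × (Fin 0 → ℝ) :=
      { toFun := fun _ => 0
        invFun := fun _ => 0
        map_add' := fun _ _ => by simp
        map_smul' := fun _ _ => by simp
        left_inv := fun _ => Subsingleton.elim _ _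
        right_inv := fun _ => Subsingleton.elim _ _ }
    have hz0 : ∀ z : Z, ‖z‖ ≤ 0 := fun z => by
      rw [Subsingleton.elim z 0, norm_zero]
    have hn : ∀ z, ‖T0.toContinuousLinearEquiv z‖ = 0 := fun z => by
      rw [Subsingleton.elim (T0.toContinuousLinearEquiv z) 0, norm_zero]
    have hn1 : ∀ z, ‖(T0.toContinuousLinearEquiv z).1‖ = 0 := fun z => by
      rw [Subsingleton.elim (T0.toContinuousLinearEquiv z).1 0, norm_zero]
    refine ⟨0, 0, T0.toContinuousLinearEquiv, 1, C + 2, C + 3, 2, -C, C, one_pos, by linarith,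
      by linarith, by norm_num, by linarith, by nlinarith, ?_, ?_, ?_, ?_, ?_, ?_⟩
    · intro x z h
      rw [hn] at h; norm_num at h
    · intro x z _
      have := abs_lt.1 (hC x z (hz0 z)); linarith [this.1]
    · intro z _
      simp [q0, hC0]
    · intro x z h _
      rw [hn1] at h; linarith
    · intro x z _ _
      have := abs_lt.1 (hC x z (hz0 z)); linarith [this.2]
    · intro x z _
      rw [hn]; norm_num
  · obtain ⟨Q, R, hQn, hR, hFQ⟩ := hQ hZ
    obtain ⟨p, q, T, hT⟩ := exists_coords Q hQn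
    -- `‖z‖ ≤ R` implies `‖T z‖ ≤ R₁`
    have hTR : ∀ z, ‖z‖ ≤ R → ‖T z‖ ≤ ‖(T : Z →L[ℝ] (Fin p → ℝ) × (Fin q → ℝ))‖ * R := by
      intro z hz
      exact ((T : Z →L[ℝ] (Fin p → ℝ) × (Fin q → ℝ)).le_opNorm z).trans
        (mul_le_mul_of_nonneg_left hz (norm_nonneg _))
    set R₁ : ℝ := ‖(T : Z →L[ℝ] (Fin p → ℝ) × (Fin q → ℝ))‖ * R + 1 with hR₁
    have hR₁0 : 0 < R₁ := by positivity
    -- `‖T z‖ ≤ R₁` implies `‖z‖ ≤ R₂`
    obtain ⟨C, hC0, hC⟩ :=
      hbd (‖(T.symm : (Fin p → ℝ) × (Fin q → ℝ) →L[ℝ] Z)‖ * R₁)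
    have hTs : ∀ z, ‖T z‖ ≤ R₁ →
        ‖z‖ ≤ ‖(T.symm : (Fin p → ℝ) × (Fin q → ℝ) →L[ℝ] Z)‖ * R₁ := by
      intro z hz
      have h1 := (T.symm : (Fin p → ℝ) × (Fin q → ℝ) →L[ℝ] Z).le_opNorm (T z)
      simp only [ContinuousLinearEquiv.coe_coe, ContinuousLinearEquiv.symm_apply_apply] at h1
      exact h1.trans (mul_le_mul_of_nonneg_left hz (norm_nonneg _))
    set b : ℝ := R₁ + 1 with hb
    have hqb : (0 : ℝ) ≤ q * b ^ 2 := by positivity
    have hpb : (0 : ℝ) ≤ p * R₁ ^ 2 := by positivity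
    set L : ℝ := C + q * b ^ 2 + p * R₁ ^ 2 + 1 with hLdef
    have hL : 0 < L := by positivity
    set a' : ℝ := L + q * b ^ 2 + R₁ + 1 with ha'
    have ha'1 : 1 ≤ a' := by linarith
    have ha'2 : L + q * b ^ 2 < a' ^ 2 := by nlinarith
    have hquad : ∀ x z, R₁ < ‖T z‖ → F (x, z) = q0 (T z) := by
      intro x z h
      have hz : R ≤ ‖z‖ := by
        by_contra hcon
        push Not at hcon
        have := hTR z hcon.le
        linarith
      rw [hFQ x z hz, hT]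
    refine ⟨p, q, T, R₁, a', a' + 1, b, -L, L, hR₁0, by linarith, by linarith, by linarith,
      by linarith, by linarith, hquad, ?_, ?_, ?_, ?_, ?_⟩
    · intro x z h
      have := abs_lt.1 (hC x z (hTs z h))
      linarith [this.1]
    · intro z h
      have h3 := sum_sq_le_of_norm_le ((norm_fst_le (T z)).trans h)
      have h4 : 0 ≤ ∑ i, (T z).2 i ^ 2 := Finset.sum_nonneg fun _ _ => sq_nonneg _
      rw [q0]
      linarith
    · intro x z h1 h2
      have h0 : R₁ < ‖T z‖ := by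
        have := norm_fst_le (T z)
        linarith
      rw [hquad x z h0, q0]
      have h3 := sq_le_sum_sq_of_le_norm (by linarith) h1
      have h4 := sum_sq_le_of_norm_le h2
      linarith
    · intro x z h1 h2
      rcases le_or_gt ‖T z‖ R₁ with hz | hz
      · have := abs_lt.1 (hC x z (hTs z hz)); linarith [this.2]
      · rw [hquad x z hz, q0]
        have h4 := sum_sq_le_of_norm_le h2
        have h5 : 0 ≤ ∑ i, (T z).1 i ^ 2 := Finset.sum_nonneg fun _ _ => sq_nonneg _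
        linarith
    · intro x z h
      have hz : ‖z‖ ≤ R := by
        by_contra hcon
        push Not at hcon
        have hz0 : z ≠ 0 := by
          rintro rfl
          rw [norm_zero] at hcon
          linarith
        refine not_mem_crit_of_eventuallyEq (V := V) hQn hz0 ?_
          ((hF.mdifferentiable (by simp)) (x, z)) h
        filter_upwards [(isOpen_lt continuous_const continuous_norm).mem_nhds hcon] with z' hz'
        exact hFQ x z' (le_of_lt hz')
      have h1 := hTR z hz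
      linarith

end Box

end Vale.Agent.P265.H690
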